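import Vale.Agent.P248.FewFacets.Transport
import Vale.Agent.P248.Ellipsoids.Defs
import Vale.Agent.P254.FewSlabs.Main
import Vale.Agent.P254.FewSlabs.Peaked

/-!
P248, few facets: a polytope cut out by `n + k` pairs of parallel hyperplanes has volume product at
least `exp (-k / 2) * 4 ^ n / n!`.
-/

noncomputable section

open MeasureTheory Set Matrix
open scoped ENNReal Topology Pointwise Nat

namespace Vale.Agent.P248.FewFacets

open Vale.Agent.P254.FewSlabs (IsFrame body)
open Vale.Agent.P248.Ellipsoids (polarSet)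

variable {n N : ℕ}

/-- The weight of the `i`th vector. -/
def wgt (u : Fin N → Fin n → ℝ) (i : Fin N) : ℝ := ∑ j, u i j ^ 2

/-- The normalised coordinate along the `i`th vector. -/
def crd (u : Fin N → Fin n → ℝ) (i : Fin N) (x : Fin n → ℝ) : ℝ :=
  (∑ j, u i j * x j) / √(wgt u i)

/-- The transport. -/
def phi (u : Fin N → Fin n → ℝ) (x : Fin n → ℝ) : Fin n → ℝ :=
  ∑ i, (wgt u i * tF (crd u i x)) • u i

/-- The derivative of the transport. -/
def dphi (u : Fin N → Fin n → ℝ) (x : Fin n → ℝ) : (Fin n → ℝ) →L[ℝ] (Fin n → ℝ) :=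
  LinearMap.toContinuousLinearMap (Matrix.toLin'
    (∑ i, (√(wgt u i) * tF' (crd u i x)) • vecMulVec (u i) (u i)))

variable {u : Fin N → Fin n → ℝ}

lemma wgt_nonneg (u : Fin N → Fin n → ℝ) (i : Fin N) : 0 ≤ wgt u i :=
  Finset.sum_nonneg fun j _ => sq_nonneg _

lemma frame_apply (hu : IsFrame u) (x : Fin n → ℝ) (j : Fin n) :
    ∑ i, u i j * ∑ k, u i k * x k = x j := by
  calc ∑ i, u i j * ∑ k, u i k * x k = ∑ k, (∑ i, u i j * u i k) * x k := by
        simp only [Finset.mul_sum, Finset.sum_mul]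
        rw [Finset.sum_comm]
        exact Finset.sum_congr rfl fun k _ => Finset.sum_congr rfl fun i _ => by ring
    _ = x j := by simp [hu j]

lemma frame_sq (hu : IsFrame u) (x : Fin n → ℝ) :
    ∑ i, (∑ j, u i j * x j) ^ 2 = ∑ j, x j ^ 2 := by
  calc ∑ i, (∑ j, u i j * x j) ^ 2 = ∑ i, ∑ j, x j * (u i j * ∑ k, u i k * x k) :=
        Finset.sum_congr rfl fun i _ => by
          rw [sq, Finset.sum_mul]
          exact Finset.sum_congr rfl fun j _ => by ring
    _ = ∑ j, x j ^ 2 := by
        rw [Finset.sum_comm]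
        simp only [← Finset.mul_sum, frame_apply hu, ← sq]

lemma wgt_sum (hu : IsFrame u) : ∑ i, wgt u i = n := by
  simp only [wgt, sq]
  rw [Finset.sum_comm]
  simp [hu _ _]

lemma mul_crd (u : Fin N → Fin n → ℝ) (i : Fin N) (x : Fin n → ℝ) :
    √(wgt u i) * crd u i x = ∑ j, u i j * x j := by
  rcases (wgt_nonneg u i).eq_or_lt with h | h
  · have hz : ∀ j, u i j = 0 := fun j => by
      simpa using (Finset.sum_eq_zero_iff_of_nonneg fun j _ => sq_nonneg (u i j)).1 h.symm j
        (Finset.mem_univ j)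
    simp [← h, hz]
  · rw [crd, mul_comm, div_mul_cancel₀ _ (Real.sqrt_pos.2 h).ne']

lemma phi_hasFDerivAt (u : Fin N → Fin n → ℝ) (x : Fin n → ℝ) :
    HasFDerivAt (phi u) (dphi u x) x := by
  have hc : ∀ i, HasFDerivAt (fun z => crd u i z)
      ((√(wgt u i))⁻¹ • ∑ j, u i j • (ContinuousLinearMap.proj j : (Fin n → ℝ) →L[ℝ] ℝ)) x := by
    intro i
    have h := (HasFDerivAt.fun_sum (u := Finset.univ) fun j (_ : j ∈ Finset.univ) =>
      (hasFDerivAt_apply (𝕜 := ℝ) j x).const_mul (u i j)).const_mul (√(wgt u i))⁻¹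
    simpa [crd, div_eq_inv_mul] using h
  have hi : ∀ i, HasFDerivAt (fun z => (wgt u i * tF (crd u i z)) • u i)
      ((wgt u i • (tF' (crd u i x) • ((√(wgt u i))⁻¹ •
        ∑ j, u i j • (ContinuousLinearMap.proj j : (Fin n → ℝ) →L[ℝ] ℝ)))).smulRight (u i)) x :=
    fun i => (((tF_hasDerivAt _).comp_hasFDerivAt x (hc i)).const_mul (wgt u i)).smul_const (u i)
  refine (HasFDerivAt.fun_sum (u := Finset.univ) fun i _ => hi i).congr_fderiv ?_
  ext1 z
  simp only [dphi, ContinuousLinearMap.sum_apply, ContinuousLinearMap.smulRight_apply,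
    ContinuousLinearMap.smul_apply, ContinuousLinearMap.proj_apply, smul_eq_mul,
    LinearMap.coe_toContinuousLinearMap', Matrix.toLin'_apply, Matrix.sum_mulVec,
    Matrix.smul_mulVec, Matrix.vecMulVec_mulVec, op_smul_eq_smul, smul_smul]
  refine Finset.sum_congr rfl fun i _ => ?_
  congr 1
  have : wgt u i * (√(wgt u i))⁻¹ = √(wgt u i) := by
    rw [← div_eq_mul_inv, Real.div_sqrt]
  rw [show u i ⬝ᵥ z = ∑ j, u i j * z j from rfl]
  linear_combination (tF' (crd u i x) * ∑ j, u i j * z j) * this

lemma phi_injective (hu : IsFrame u) : Function.Injective (phi u) := by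
  intro x z h
  have h1 : ∑ i, wgt u i * ((tF (crd u i x) - tF (crd u i z)) *
      (√(wgt u i) * (crd u i x - crd u i z))) = 0 := by
    have h2 : ∑ j, (phi u x j - phi u z j) * (x j - z j) = 0 := by simp [h]
    simp only [phi, Finset.sum_apply, Pi.smul_apply, smul_eq_mul, ← Finset.sum_sub_distrib,
      Finset.sum_mul] at h2
    rw [Finset.sum_comm] at h2
    refine Eq.trans (Finset.sum_congr rfl fun i _ => ?_) h2
    rw [mul_sub, mul_crd, mul_crd, ← Finset.sum_sub_distrib, Finset.mul_sum, Finset.mul_sum]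
    exact Finset.sum_congr rfl fun j _ => by ring
  have hnn : ∀ i ∈ (Finset.univ : Finset (Fin N)), 0 ≤ wgt u i *
      ((tF (crd u i x) - tF (crd u i z)) * (√(wgt u i) * (crd u i x - crd u i z))) := by
    intro i _
    refine mul_nonneg (wgt_nonneg u i) ?_
    rw [mul_left_comm]
    refine mul_nonneg (Real.sqrt_nonneg _) ?_
    rcases le_total (crd u i x) (crd u i z) with hle | hle
    · exact mul_nonneg_of_nonpos_of_nonpos (sub_nonpos.2 (tF_strictMono.monotone hle))
        (sub_nonpos.2 hle)
    · exact mul_nonneg (sub_nonneg.2 (tF_strictMono.monotone hle)) (sub_nonneg.2 hle)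
  have hzero : ∀ i, ∑ j, u i j * x j = ∑ j, u i j * z j := fun i => by
    have h3 := (Finset.sum_eq_zero_iff_of_nonneg hnn).1 h1 i (Finset.mem_univ i)
    rw [← mul_crd, ← mul_crd]
    rcases (wgt_nonneg u i).eq_or_lt with hw | hw
    · simp [← hw]
    congr 1
    rcases mul_eq_zero.1 h3 with h4 | h4
    · exact absurd h4 hw.ne'
    rcases mul_eq_zero.1 h4 with h5 | h5
    · exact tF_strictMono.injective (sub_eq_zero.1 h5)
    · exact sub_eq_zero.1 ((mul_eq_zero.1 h5).resolve_left (Real.sqrt_pos.2 hw).ne')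
  funext j
  rw [← frame_apply hu x j, ← frame_apply hu z j]
  simp [hzero]

/-- The polar of the frame body contains every combination with absolute sum at most one. -/
lemma comb_mem (t : Fin N → ℝ) (ht : ∑ i, |t i| ≤ 1) :
    ∑ i, t i • u i ∈ polarSet (body u) := by
  intro z hz
  calc ∑ j, (∑ i, t i • u i) j * z j = ∑ i, t i * ∑ j, u i j * z j := by
        simp only [Finset.sum_apply, Pi.smul_apply, smul_eq_mul, Finset.sum_mul, Finset.mul_sum]
        rw [Finset.sum_comm]
        simp only [mul_assoc]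
    _ ≤ ∑ i, |t i| := Finset.sum_le_sum fun i _ => by
        refine (le_abs_self _).trans ?_
        rw [abs_mul]
        exact mul_le_of_le_one_right (abs_nonneg _) (hz i)
    _ ≤ 1 := ht

/-- Facts about the polar of the frame body. -/
lemma polar_facts (hu : IsFrame u) :
    Convex ℝ (polarSet (body u)) ∧ IsClosed (polarSet (body u)) ∧
      (∀ y ∈ polarSet (body u), -y ∈ polarSet (body u)) ∧
      polarSet (body u) ∈ 𝓝 (0 : Fin n → ℝ) ∧ Bornology.IsBounded (polarSet (body u)) := by
  have hbody : ∀ z ∈ body u, ∑ j, z j ^ 2 ≤ N := fun z hz => by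
    rw [← frame_sq hu z]
    refine (Finset.sum_le_sum (g := fun _ => (1 : ℝ)) fun i _ => ?_).trans (le_of_eq (by simp))
    exact (sq_le_one_iff_abs_le_one _).2 (hz i)
  have e : polarSet (body u) = ⋂ z ∈ body u, {y : Fin n → ℝ | ∑ j, y j * z j ≤ 1} := by
    ext y; simp [polarSet]
  refine ⟨?_, ?_, ?_, ?_, ?_⟩
  · rw [e]
    exact convex_iInter₂ fun z _ => convex_halfSpace_le
      ⟨fun a b => by simp [add_mul, Finset.sum_add_distrib],
        fun c a => by simp [Finset.mul_sum, mul_assoc]⟩ 1
  · rw [e]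
    exact isClosed_biInter fun z _ => isClosed_le (by fun_prop) continuous_const
  · intro y hy z hz
    have hz' : -z ∈ body u := fun i => by simpa using hz i
    simpa using hy _ hz'
  · have hmem : {y : Fin n → ℝ | ∑ j, y j ^ 2 < 1 / ((N : ℝ) + 1)} ∈ 𝓝 (0 : Fin n → ℝ) :=
      (isOpen_lt (by fun_prop) continuous_const).mem_nhds (by simp; positivity)
    refine Filter.mem_of_superset hmem fun y hy z hz => ?_
    refine (Real.sum_mul_le_sqrt_mul_sqrt _ _ _).trans ?_
    rw [← Real.sqrt_mul (Finset.sum_nonneg fun i _ => sq_nonneg _)]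
    refine Real.sqrt_le_one.2 ?_
    have hy' : ∑ j, y j ^ 2 < 1 / ((N : ℝ) + 1) := hy
    rw [lt_div_iff₀ (by positivity)] at hy'
    nlinarith [hbody z hz, Finset.sum_nonneg fun j (_ : j ∈ Finset.univ) => sq_nonneg (y j)]
  · refine (isBounded_iff_forall_norm_le).2 ⟨√n, fun y hy => ?_⟩
    refine (pi_norm_le_iff_of_nonneg (Real.sqrt_nonneg _)).2 fun j => ?_
    have hs : ∀ s : ℝ, |s| = 1 → (Pi.single j (s / √n) : Fin n → ℝ) ∈ body u := fun s hs i => by
      have hn0 : (1 : ℝ) ≤ n := by exact_mod_cast Fin.pos j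
      have h1 : u i j ^ 2 ≤ 1 := by
        have h := hu j j
        simp only [if_true, ← sq] at h
        rw [← h]
        exact Finset.single_le_sum (f := fun k => u k j ^ 2) (fun k _ => sq_nonneg _)
          (Finset.mem_univ i)
      rw [Finset.sum_eq_single j (fun k _ hk => by simp [hk])
        (fun h => absurd (Finset.mem_univ j) h), Pi.single_eq_same, abs_mul, abs_div, hs,
        abs_of_pos (Real.sqrt_pos.2 (by linarith)), mul_one_div,
        div_le_one (Real.sqrt_pos.2 (by linarith))]
      exact ((sq_le_one_iff_abs_le_one _).1 h1).trans (Real.one_le_sqrt.2 hn0)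
    have hn0 : (0 : ℝ) < √n := Real.sqrt_pos.2 (by exact_mod_cast Fin.pos j)
    have h1 := hy _ (hs 1 (by simp))
    have h2 := hy _ (hs (-1) (by simp))
    rw [Finset.sum_eq_single j (fun k _ hk => by simp [hk])
      (fun h => absurd (Finset.mem_univ j) h), Pi.single_eq_same, ← mul_div_assoc,
      div_le_one hn0] at h1 h2
    rw [Real.norm_eq_abs, abs_le]
    constructor <;> linarith

/-- The lower bound for the volume of the polar. -/
theorem polar_volume_ge (hu : IsFrame u) :
    ENNReal.ofReal ((2 : ℝ) ^ n * (∏ i, √(wgt u i) ^ wgt u i) / n !) ≤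
      volume (polarSet (body u)) := by
  obtain ⟨hconv, hcl, hsym, hnhds, hbd⟩ := polar_facts hu
  set P := polarSet (body u) with hP
  have habs : Absorbent ℝ P := absorbent_nhds_zero hnhds
  have hvb : Bornology.IsVonNBounded ℝ P := NormedSpace.isVonNBounded_of_isBounded ℝ hbd
  -- the integral of the exponential of the gauge
  set g := gauge P with hg
  have hneg : ∀ y, g (-y) = g y := fun y => gauge_neg (fun z hz => hsym z hz) y
  have hsmul : ∀ (r : ℝ) y, g (r • y) ≤ |r| * g y := fun r y => by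
    rcases le_total 0 r with hr | hr
    · rw [hg, gauge_smul_of_nonneg hr, smul_eq_mul, abs_of_nonneg hr]
    · rw [show r • y = -((-r) • y) by simp, hneg, hg,
        gauge_smul_of_nonneg (neg_nonneg.2 hr), smul_eq_mul, abs_of_nonpos hr]
  have hvol := MeasureTheory.measure_lt_one_eq_integral_div_gamma (μ := (volume : Measure (Fin n → ℝ)))
    (g := g) gauge_zero hneg (gauge_add_le hconv habs) (fun {y} hy => (gauge_eq_zero habs hvb).1 hy)
    hsmul one_pos
  simp only [Real.rpow_one, div_one, Module.finrank_fin_fun, Real.Gamma_nat_eq_factorial] at hvol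
  have hsubP : {y | g y < 1} ⊆ P := gauge_lt_one_subset_self hconv (mem_of_mem_nhds hnhds) habs
  have hcont : Continuous g := continuous_gauge hconv hnhds
  have hI0 : ∫ y, Real.exp (-g y) ≠ 0 := fun h0 => by
    rw [h0, zero_div, ENNReal.ofReal_zero] at hvol
    exact ((isOpen_lt hcont continuous_const).measure_pos volume
      ⟨0, by simp [hg, gauge_zero]⟩).ne' hvol
  have hint : Integrable fun y => Real.exp (-g y) := Integrable.of_integral_ne_zero hI0
  have hle : ∫⁻ y, ENNReal.ofReal (Real.exp (-g y)) ≤ ENNReal.ofReal (n ! : ℝ) * volume P := by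
    rw [← ofReal_integral_eq_lintegral_ofReal hint
      (Filter.Eventually.of_forall fun y => (Real.exp_pos _).le)]
    refine le_trans (Eq.le ?_) (mul_le_mul_right (measure_mono hsubP) _)
    rw [hvol, ← ENNReal.ofReal_mul (Nat.cast_nonneg _), mul_div_cancel₀]
    exact_mod_cast n.factorial_pos.ne'
  -- change of variables
  set f : (Fin n → ℝ) → ℝ≥0∞ := fun y => ENNReal.ofReal (Real.exp (-g y)) with hf
  have hcv := lintegral_image_eq_lintegral_abs_det_fderiv_mul (volume : Measure (Fin n → ℝ))
    MeasurableSet.univ (fun x _ => (phi_hasFDerivAt u x).hasFDerivWithinAt)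
    (phi_injective hu).injOn f
  have hprod : ∀ x, ENNReal.ofReal ((2 : ℝ) ^ n * (∏ i, √(wgt u i) ^ wgt u i) *
      Real.exp (-(Real.pi * ∑ j, x j ^ 2))) ≤ ENNReal.ofReal |(dphi u x).det| * f (phi u x) := by
    intro x
    rw [hf, ← ENNReal.ofReal_mul (abs_nonneg _)]
    refine ENNReal.ofReal_le_ofReal ?_
    set W : Fin N → ℝ := fun i => √(wgt u i) * tF' (crd u i x) with hW
    have hdet : ∏ i, W i ^ wgt u i ≤ |(dphi u x).det| := by
      refine le_trans ?_ (le_abs_self _)
      simp only [dphi, ContinuousLinearMap.det, LinearMap.coe_toContinuousLinearMap,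
        LinearMap.det_toLin']
      exact det_frame_ge u hu W fun i => mul_nonneg (Real.sqrt_nonneg _) (tF'_pos _).le
    set r := ∑ i, wgt u i * |tF (crd u i x)| with hr
    have hr0 : 0 ≤ r := Finset.sum_nonneg fun i _ => mul_nonneg (wgt_nonneg u i) (abs_nonneg _)
    have hgr : g (phi u x) ≤ r := by
      rcases hr0.eq_or_lt with h0 | h0
      · have hz : phi u x = 0 := Finset.sum_eq_zero fun i hi => by
          have h := (Finset.sum_eq_zero_iff_of_nonneg fun i _ =>
            mul_nonneg (wgt_nonneg u i) (abs_nonneg _)).1 h0.symm i hi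
          rcases mul_eq_zero.1 h with h1 | h1
          · simp [h1]
          · simp [abs_eq_zero.1 h1]
        rw [hz, hg, gauge_zero, ← h0]
      · refine gauge_le_of_mem hr0 ⟨r⁻¹ • phi u x, ?_, by simp [smul_smul, h0.ne']⟩
        rw [phi, Finset.smul_sum]
        simp only [smul_smul]
        refine comb_mem _ ?_
        simp only [abs_mul, abs_inv, abs_of_pos h0, abs_of_nonneg (wgt_nonneg u _)]
        rw [← Finset.mul_sum, ← hr, inv_mul_cancel₀ h0.ne']
    have hexp : Real.exp (-r) = ∏ i, Real.exp (-|tF (crd u i x)|) ^ wgt u i := by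
      rw [hr, ← Finset.sum_neg_distrib, Real.exp_sum]
      refine Finset.prod_congr rfl fun i _ => ?_
      rw [← Real.exp_mul]; ring_nf
    calc (2 : ℝ) ^ n * (∏ i, √(wgt u i) ^ wgt u i) * Real.exp (-(Real.pi * ∑ j, x j ^ 2))
        = ∏ i, (√(wgt u i) * (2 * Real.exp (-(Real.pi * crd u i x ^ 2)))) ^ wgt u i := by
          have h2 : (2 : ℝ) ^ n = ∏ i, (2 : ℝ) ^ wgt u i := by
            rw [← Real.rpow_sum_of_pos two_pos, wgt_sum hu, Real.rpow_natCast]
          have h3 : Real.exp (-(Real.pi * ∑ j, x j ^ 2)) =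
              ∏ i, Real.exp (-(Real.pi * crd u i x ^ 2)) ^ wgt u i := by
            rw [← frame_sq hu x, Finset.mul_sum, ← Finset.sum_neg_distrib, Real.exp_sum]
            refine Finset.prod_congr rfl fun i _ => ?_
            rw [← Real.exp_mul, ← mul_crd, mul_pow, Real.sq_sqrt (wgt_nonneg u i)]
            ring_nf
          rw [h2, h3, ← Finset.prod_mul_distrib, ← Finset.prod_mul_distrib]
          refine Finset.prod_congr rfl fun i _ => ?_
          rw [Real.mul_rpow (Real.sqrt_nonneg _) (by positivity),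
            Real.mul_rpow two_pos.le (Real.exp_pos _).le]
          ring
      _ = (∏ i, W i ^ wgt u i) * Real.exp (-r) := by
          rw [hexp, ← Finset.prod_mul_distrib]
          refine Finset.prod_congr rfl fun i _ => ?_
          rw [← Real.mul_rpow (mul_nonneg (Real.sqrt_nonneg _) (tF'_pos _).le) (Real.exp_pos _).le,
            mul_assoc, tF_identity]
      _ ≤ |(dphi u x).det| * Real.exp (-g (phi u x)) := by
          refine mul_le_mul hdet (Real.exp_le_exp.2 (neg_le_neg hgr)) (Real.exp_pos _).le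
            (abs_nonneg _)
  have hgauss : Integrable (fun x : Fin n → ℝ => Real.exp (-(Real.pi * ∑ j, x j ^ 2))) ∧
      ∫ x : Fin n → ℝ, Real.exp (-(Real.pi * ∑ j, x j ^ 2)) = 1 := by
    have e : ∀ y : Fin n → ℝ,
        Real.exp (-(Real.pi * ∑ j, y j ^ 2)) = ∏ j, Real.exp (-Real.pi * y j ^ 2) := fun y => by
      rw [← Real.exp_sum, ← Finset.mul_sum, neg_mul]
    simp only [e]
    refine ⟨?_, ?_⟩
    · rw [volume_pi]
      exact Integrable.fintype_prod fun _ => integrable_exp_neg_mul_sq Real.pi_pos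
    · rw [integral_fintype_prod_volume_eq_pow (fun t : ℝ => Real.exp (-Real.pi * t ^ 2)),
        integral_gaussian, div_self Real.pi_pos.ne', Real.sqrt_one, one_pow]
  have hmain : ENNReal.ofReal ((2 : ℝ) ^ n * (∏ i, √(wgt u i) ^ wgt u i)) ≤
      ENNReal.ofReal (n ! : ℝ) * volume P := by
    refine le_trans ?_ hle
    refine le_trans ?_ (setLIntegral_le_lintegral (phi u '' univ) f)
    rw [hcv, Measure.restrict_univ]
    refine le_trans (Eq.le ?_) (lintegral_mono hprod)
    rw [← ofReal_integral_eq_lintegral_ofReal (hgauss.1.const_mul _)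
      (Filter.Eventually.of_forall fun x => ?_), integral_const_mul, hgauss.2, mul_one]
    exact mul_nonneg (mul_nonneg (by positivity) (Finset.prod_nonneg fun i _ =>
      Real.rpow_nonneg (Real.sqrt_nonneg _) _)) (Real.exp_pos _).le
  have hfp : (0 : ℝ) < n ! := by exact_mod_cast n.factorial_pos
  rw [ENNReal.ofReal_div_of_pos hfp]
  exact ENNReal.div_le_of_le_mul' hmain

end Vale.Agent.P248.FewFacets
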