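import Vale.Agent.P248.FewFacets.Main

/-!
P248, few facets: the volume product bound for every bounded intersection of slabs.
-/

noncomputable section

open MeasureTheory Set Matrix
open scoped ENNReal Nat

namespace Vale.Agent.P248.FewFacets

open Vale.Agent.P254.FewSlabs (IsFrame body exists_position vaaler_of_peaked peaked)
open Vale.Agent.P248.Ellipsoids (polarSet)

variable {n N : ℕ}

/-- In a frame the weights lose at most `exp (-(N - n) / 2)`. -/
lemma weights_ge {u : Fin N → Fin n → ℝ} (hu : IsFrame u) :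
    Real.exp (-((N : ℝ) - n) / 2) ≤ ∏ i, √(wgt u i) ^ wgt u i := by
  have e : -((N : ℝ) - n) / 2 = ∑ i, (wgt u i - 1) / 2 := by
    rw [← Finset.sum_div, Finset.sum_sub_distrib, wgt_sum hu]
    simp
  rw [e, Real.exp_sum]
  refine Finset.prod_le_prod (fun i _ => (Real.exp_pos _).le) fun i _ => ?_
  rcases (wgt_nonneg u i).eq_or_lt with h | h
  · rw [← h, Real.rpow_zero]
    exact Real.exp_le_one_iff.2 (by norm_num)
  · rw [Real.rpow_def_of_pos (Real.sqrt_pos.2 h), Real.log_sqrt h.le]
    refine Real.exp_le_exp.2 ?_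
    have h1 := Real.log_le_sub_one_of_pos (inv_pos.2 h)
    rw [Real.log_inv] at h1
    have h2 : wgt u i * (1 - (wgt u i)⁻¹) ≤ wgt u i * Real.log (wgt u i) :=
      mul_le_mul_of_nonneg_left (by linarith) h.le
    rw [mul_sub, mul_one, mul_inv_cancel₀ h.ne'] at h2
    linarith

/-- The volume product does not change under a linear change of variables. -/
lemma product_image (L : (Fin n → ℝ) →ₗ[ℝ] (Fin n → ℝ)) (hL : LinearMap.det L ≠ 0)
    (B : Set (Fin n → ℝ)) :
    volume B * volume (polarSet B) ≤ volume (L '' B) * volume (polarSet (L '' B)) := by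
  set M := LinearMap.toMatrix' L with hM
  have hLM : Matrix.toLin' M = L := Matrix.toLin'_toMatrix' L
  have hMd : M.det = LinearMap.det L := LinearMap.det_toMatrix' L
  have hT : LinearMap.det (Matrix.toLin' Mᵀ) ≠ 0 := by
    rwa [LinearMap.det_toLin', Matrix.det_transpose, hMd]
  have e : polarSet (L '' B) = Matrix.toLin' Mᵀ ⁻¹' polarSet B := by
    ext y
    have key : ∀ z, ∑ i, y i * L z i = ∑ i, (Mᵀ *ᵥ y) i * z i := fun z => by
      change y ⬝ᵥ L z = (Mᵀ *ᵥ y) ⬝ᵥ z
      rw [← hLM, Matrix.toLin'_apply, Matrix.dotProduct_mulVec, Matrix.mulVec_transpose]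
    simp only [polarSet, mem_preimage, mem_setOf_eq, forall_mem_image, Matrix.toLin'_apply, key]
  refine le_of_eq ?_
  rw [e, Measure.addHaar_preimage_linearMap _ hT, Measure.addHaar_image_linearMap,
    LinearMap.det_toLin', Matrix.det_transpose, hMd]
  rw [mul_mul_mul_comm, ← ENNReal.ofReal_mul (abs_nonneg _), abs_inv,
    mul_inv_cancel₀ (abs_ne_zero.2 hL), ENNReal.ofReal_one, one_mul]

/-- The volume product of a bounded body cut out by `N` slabs in `ℝⁿ`. -/
theorem product_slabs (a : Fin N → Fin n → ℝ)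
    (hb : Bornology.IsBounded {x : Fin n → ℝ | ∀ i, |∑ j, a i j * x j| ≤ 1}) :
    ENNReal.ofReal (Real.exp (-((N : ℝ) - n) / 2) * (4 ^ n / n !)) ≤
      volume {x : Fin n → ℝ | ∀ i, |∑ j, a i j * x j| ≤ 1} *
        volume (polarSet {x : Fin n → ℝ | ∀ i, |∑ j, a i j * x j| ≤ 1}) := by
  obtain ⟨u, A, hu, hA0, hKA⟩ := exists_position a hb
  have hAl : ∀ z, A z = A.linear z := fun z => by simpa [hA0] using A.map_vadd 0 z
  have himg : A '' body u = A.linear.toLinearMap '' body u := image_congr fun z _ => hAl z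
  rw [hKA, himg]
  refine le_trans ?_ (product_image _ (Vale.Agent.P254.det_linear_ne_zero A) _)
  have hVV : ENNReal.ofReal ((2 : ℝ) ^ n) ≤ volume (body u) := by
    refine le_trans (ENNReal.ofReal_le_ofReal (vaaler_of_peaked peaked n N u hu)) ?_
    exact ENNReal.ofReal_toReal_le
  refine le_trans ?_ (mul_le_mul' hVV (polar_volume_ge hu))
  rw [← ENNReal.ofReal_mul (by positivity)]
  refine ENNReal.ofReal_le_ofReal ?_
  calc Real.exp (-((N : ℝ) - n) / 2) * (4 ^ n / n !)
      ≤ (∏ i, √(wgt u i) ^ wgt u i) * (4 ^ n / n !) :=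
        mul_le_mul_of_nonneg_right (weights_ge hu) (by positivity)
    _ = _ := by
        rw [show (4 : ℝ) ^ n = 2 ^ n * 2 ^ n by rw [← mul_pow]; norm_num]
        ring

end Vale.Agent.P248.FewFacets
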