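import Mathlib

/-!
P248, few facets: the monotone map carrying the Gaussian density `exp (-π t²)` to `exp (-|s|) / 2`,
and the determinant of a positive combination of the rank one forms of a decomposition of the
identity.
-/

noncomputable section

open MeasureTheory Set Matrix

namespace Vale.Agent.P248.FewFacets

/-- The primitive of the Gaussian density. -/
def gG (t : ℝ) : ℝ := ∫ s in (0 : ℝ)..t, Real.exp (-(Real.pi * s ^ 2))

/-- The transport map. -/
def tF (t : ℝ) : ℝ := if 0 ≤ t then -Real.log (1 - 2 * gG t) else Real.log (1 + 2 * gG t)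

/-- The derivative of the transport map. -/
def tF' (t : ℝ) : ℝ := 2 * Real.exp (-(Real.pi * t ^ 2)) / (1 - 2 * |gG t|)

lemma gG_hasDerivAt (t : ℝ) : HasDerivAt gG (Real.exp (-(Real.pi * t ^ 2))) t :=
  ((by fun_prop : Continuous fun s : ℝ => Real.exp (-(Real.pi * s ^ 2)))).integral_hasStrictDerivAt
    0 t |>.hasDerivAt

lemma gG_strictMono : StrictMono gG := by
  refine strictMono_of_deriv_pos fun t => ?_
  rw [(gG_hasDerivAt t).deriv]
  exact Real.exp_pos _

lemma gG_zero : gG 0 = 0 := intervalIntegral.integral_same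

lemma gG_nonneg {t : ℝ} (ht : 0 ≤ t) : 0 ≤ gG t := gG_zero ▸ gG_strictMono.monotone ht

lemma gG_neg (t : ℝ) : gG (-t) = -gG t := by
  have h := intervalIntegral.integral_comp_neg (a := 0) (b := t)
    (fun s : ℝ => Real.exp (-(Real.pi * s ^ 2)))
  simp only [neg_sq, neg_zero] at h
  rw [gG, gG, intervalIntegral.integral_symm, ← h]

lemma gG_lt (t : ℝ) : 2 * gG t < 1 := by
  have hlt : gG t < gG (max t 0 + 1) := gG_strictMono (by linarith [le_max_left t 0])
  have hI : Integrable fun s : ℝ => Real.exp (-(Real.pi * s ^ 2)) := by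
    simpa using integrable_exp_neg_mul_sq Real.pi_pos
  have hle : gG (max t 0 + 1) ≤ 1 / 2 := by
    have h0 : (0 : ℝ) ≤ max t 0 + 1 := by linarith [le_max_right t 0]
    rw [gG, intervalIntegral.integral_of_le h0]
    refine (setIntegral_mono_set hI.integrableOn
      (Filter.Eventually.of_forall fun s => (Real.exp_pos _).le)
      Ioc_subset_Ioi_self.eventuallyLE).trans (Eq.le ?_)
    have := integral_gaussian_Ioi Real.pi
    simpa [neg_mul, div_self Real.pi_pos.ne'] using this
  linarith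

lemma abs_gG_lt (t : ℝ) : 2 * |gG t| < 1 := by
  rcases abs_cases (gG t) with h | h
  · rw [h.1]; exact gG_lt t
  · rw [h.1, ← gG_neg]; exact gG_lt (-t)

lemma tF'_pos (t : ℝ) : 0 < tF' t :=
  div_pos (by positivity) (by linarith [abs_gG_lt t])

lemma tF_hasDerivAt (t : ℝ) : HasDerivAt tF (tF' t) t := by
  have hp : 1 - 2 * gG t ≠ 0 := by linarith [gG_lt t]
  have hm : 1 + 2 * gG t ≠ 0 := by linarith [gG_lt (-t), gG_neg t]
  have h1 : HasDerivAt (fun x => -Real.log (1 - 2 * gG x))
      (2 * Real.exp (-(Real.pi * t ^ 2)) / (1 - 2 * gG t)) t := by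
    exact ((((gG_hasDerivAt t).const_mul 2).const_sub 1).log hp).neg.congr_deriv (by
      rw [neg_div, neg_neg])
  have h2 : HasDerivAt (fun x => Real.log (1 + 2 * gG x))
      (2 * Real.exp (-(Real.pi * t ^ 2)) / (1 + 2 * gG t)) t :=
    (((gG_hasDerivAt t).const_mul 2).const_add 1).log hm
  rcases lt_trichotomy t 0 with ht | ht | ht
  · have e : tF' t = 2 * Real.exp (-(Real.pi * t ^ 2)) / (1 + 2 * gG t) := by
      rw [tF', abs_of_neg (by rw [← gG_zero]; exact gG_strictMono ht), mul_neg, sub_neg_eq_add]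
    rw [e]
    refine h2.congr_of_eventuallyEq ?_
    filter_upwards [Iio_mem_nhds ht] with x hx
    simp [tF, not_le.2 (mem_Iio.1 hx)]
  · subst ht
    have e : tF' 0 = 2 := by simp [tF', gG_zero]
    rw [e]
    simp only [gG_zero] at h1 h2
    norm_num at h1 h2
    have l1 : HasDerivWithinAt tF 2 (Ici 0) 0 :=
      h1.hasDerivWithinAt.congr (fun x hx => by simp only [tF, if_pos (show (0 : ℝ) ≤ x from hx)])
        (by simp [tF])
    have l2 : HasDerivWithinAt tF 2 (Iic 0) 0 :=
      h2.hasDerivWithinAt.congr (fun x hx => by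
        rcases (show x ≤ 0 from hx).eq_or_lt with rfl | hx'
        · simp [tF, gG_zero]
        · simp [tF, not_le.2 hx']) (by simp [tF, gG_zero])
    have := l2.union l1
    rwa [Iic_union_Ici, hasDerivWithinAt_univ] at this
  · have e : tF' t = 2 * Real.exp (-(Real.pi * t ^ 2)) / (1 - 2 * gG t) := by
      rw [tF', abs_of_nonneg (gG_nonneg ht.le)]
    rw [e]
    refine h1.congr_of_eventuallyEq ?_
    filter_upwards [Ioi_mem_nhds ht] with x hx
    simp [tF, (show (0 : ℝ) < x from hx).le]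

lemma tF_strictMono : StrictMono tF := by
  refine strictMono_of_deriv_pos fun t => ?_
  rw [(tF_hasDerivAt t).deriv]
  exact tF'_pos t

/-- The defining identity. -/
lemma tF_identity (t : ℝ) :
    tF' t * Real.exp (-|tF t|) = 2 * Real.exp (-(Real.pi * t ^ 2)) := by
  have e : Real.exp (-|tF t|) = 1 - 2 * |gG t| := by
    have h0 : tF 0 = 0 := by simp [tF, gG_zero]
    rcases le_or_gt 0 t with ht | ht
    · rw [abs_of_nonneg (h0 ▸ tF_strictMono.monotone ht), tF, if_pos ht, neg_neg,
        Real.exp_log (by linarith [gG_lt t]), abs_of_nonneg (gG_nonneg ht)]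
    · rw [abs_of_neg (h0 ▸ tF_strictMono ht), tF, if_neg (not_le.2 ht), neg_neg,
        Real.exp_log (by linarith [gG_lt (-t), gG_neg t]),
        abs_of_neg (by rw [← gG_zero]; exact gG_strictMono ht)]
      ring
  rw [e, tF', div_mul_cancel₀]
  linarith [abs_gG_lt t]

/-- A weighted geometric mean bounds the determinant. -/
lemma det_frame_ge {n N : ℕ} (u : Fin N → Fin n → ℝ)
    (hu : ∀ j k, ∑ i, u i j * u i k = if j = k then 1 else 0) (w : Fin N → ℝ) (hw : ∀ i, 0 ≤ w i) :
    ∏ i, w i ^ (∑ j, u i j ^ 2) ≤ (∑ i, w i • vecMulVec (u i) (u i)).det := by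
  set M := ∑ i, w i • vecMulVec (u i) (u i) with hM
  have hMp : M.PosSemidef := Matrix.posSemidef_sum _ fun i _ => by
    simpa using (Matrix.posSemidef_vecMulVec_self_star (u i)).smul (hw i)
  set e : Fin n → Fin n → ℝ := fun k => ⇑(hMp.1.eigenvectorBasis k) with he
  have hee : ∀ k, e k ⬝ᵥ e k = 1 := fun k => by
    have h := hMp.1.eigenvectorBasis.orthonormal.1 k
    have h' := real_inner_self_eq_norm_sq (hMp.1.eigenvectorBasis k)
    rw [h, one_pow, PiLp.inner_apply] at h'
    simpa [dotProduct, he, sq] using h'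
  have hsum : ∀ k, ∑ i, (u i ⬝ᵥ e k) ^ 2 = 1 := fun k => by
    refine Eq.trans ?_ (hee k)
    simp only [sq, dotProduct, Finset.sum_mul_sum]
    rw [Finset.sum_comm]
    refine Finset.sum_congr rfl fun j _ => ?_
    rw [Finset.sum_comm]
    simp only [show ∀ i l, u i j * e k j * (u i l * e k l) = e k j * e k l * (u i j * u i l) from
      fun i l => by ring, ← Finset.mul_sum, hu]
    simp
  have heig : ∀ k, hMp.1.eigenvalues k = ∑ i, w i * (u i ⬝ᵥ e k) ^ 2 := fun k => by
    have h1 : e k ⬝ᵥ (M *ᵥ e k) = hMp.1.eigenvalues k := by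
      rw [he, hMp.1.mulVec_eigenvectorBasis k, dotProduct_smul]
      simp only [smul_eq_mul]
      rw [show (⇑(hMp.1.eigenvectorBasis k) : Fin n → ℝ) ⬝ᵥ ⇑(hMp.1.eigenvectorBasis k) = 1 from
        hee k, mul_one]
    rw [← h1, hM, Matrix.sum_mulVec, dotProduct_sum]
    refine Finset.sum_congr rfl fun i _ => ?_
    simp only [Matrix.smul_mulVec, Matrix.vecMulVec_mulVec, dotProduct_smul, smul_eq_mul,
      op_smul_eq_mul, dotProduct_comm (e k) (u i)]
    ring
  have hrow : ∀ i, ∑ k, (u i ⬝ᵥ e k) ^ 2 = ∑ j, u i j ^ 2 := fun i => by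
    have h := hMp.1.eigenvectorBasis.sum_sq_norm_inner_right (WithLp.toLp 2 (u i))
    simpa [EuclideanSpace.norm_sq_eq, PiLp.inner_apply, dotProduct, he, sq_abs, mul_comm] using h
  rw [hMp.1.det_eq_prod_eigenvalues]
  simp only [RCLike.ofReal_real_eq_id, id_eq]
  calc ∏ i, w i ^ (∑ j, u i j ^ 2) = ∏ i, ∏ k, w i ^ ((u i ⬝ᵥ e k) ^ 2) :=
        Finset.prod_congr rfl fun i _ => by
          rw [← hrow, Real.rpow_sum_of_nonneg (hw i) fun k _ => sq_nonneg _]
    _ = ∏ k, ∏ i, w i ^ ((u i ⬝ᵥ e k) ^ 2) := Finset.prod_comm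
    _ ≤ ∏ k, hMp.1.eigenvalues k := by
        refine Finset.prod_le_prod (fun k _ => Finset.prod_nonneg fun i _ =>
          Real.rpow_nonneg (hw i) _) fun k _ => ?_
        rw [heig]
        refine (Real.geom_mean_le_arith_mean_weighted _ _ _ (fun i _ => sq_nonneg _) (hsum k)
          fun i _ => hw i).trans (Eq.le ?_)
        exact Finset.sum_congr rfl fun i _ => mul_comm _ _

end Vale.Agent.P248.FewFacets
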